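import Vale.Agent.P366.Defs

/-! Riemannian distance, completeness and Urysohn width for metrics on `ℝ^n`. -/

namespace Vale.Agent.P210H

open scoped Matrix ENNReal Topology
open Filter Set MeasureTheory Vale.Agent.P366

variable {n : ℕ}

/-- The `g`-length of the path `γ` on `[0, 1]`. -/
noncomputable def len (g : Ten n) (γ : ℝ → Pt n) : ℝ≥0∞ :=
  ∫⁻ s in Icc (0 : ℝ) 1, ENNReal.ofReal √(deriv γ s ⬝ᵥ (g (γ s) *ᵥ deriv γ s))

/-- The Riemannian distance `d_g`: the infimum of the lengths of the `C^1` paths from `x` to `y`. -/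
noncomputable def rdist (g : Ten n) (x y : Pt n) : ℝ≥0∞ :=
  ⨅ (γ : ℝ → Pt n) (_ : ContDiff ℝ 1 γ ∧ γ 0 = x ∧ γ 1 = y), len g γ

/-- Metric completeness of `(ℝ^n, d_g)`: every `d_g`-Cauchy sequence converges. -/
def Complete (g : Ten n) : Prop :=
  ∀ u : ℕ → Pt n, (∀ ε : ℝ≥0∞, 0 < ε → ∃ N, ∀ k ≥ N, ∀ l ≥ N, rdist g (u k) (u l) < ε) →
    ∃ y, Tendsto u atTop (𝓝 y)

/-- The geometric realization of an abstract simplicial complex, in barycentric coordinates. -/
def realization {ι : Type} (K : PreAbstractSimplicialComplex ι) : Set (ι → ℝ) :=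
  {p | ∃ s ∈ K.faces, (∀ v, 0 ≤ p v) ∧ (∀ v, v ∉ s → p v = 0) ∧ ∑ v ∈ s, p v = 1}

/-- There is a continuous map from `X` to a locally finite simplicial complex of dimension at most
`k` all of whose fibres have `d`-diameter at most `D`. -/
def WidthLe {X : Type} [TopologicalSpace X] (d : X → X → ℝ≥0∞) (k : ℕ) (D : ℝ) : Prop :=
  ∃ (ι : Type) (K : PreAbstractSimplicialComplex ι) (f : X → ι → ℝ),
    (∀ s ∈ K.faces, s.card ≤ k + 1) ∧ (∀ v, {s ∈ K.faces | v ∈ s}.Finite) ∧ Continuous f ∧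
    (∀ x, f x ∈ realization K) ∧ ∀ x y, f x = f y → d x y ≤ ENNReal.ofReal D

end Vale.Agent.P210H
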