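import Vale.Agent.P366.Alg
import Vale.Agent.P210H.Defs

/-! Short paths along the Hopf fibres. -/

namespace Vale.Agent.P210H

open scoped Matrix ENNReal Topology
open Filter Set MeasureTheory Vale.Agent.P366

variable {n : ℕ} {J : Fin 3 → Matrix (Fin n) (Fin n) ℝ}

theorem dot_nn (x : Pt n) : 0 ≤ x ⬝ᵥ x := Finset.sum_nonneg fun i _ => mul_self_nonneg (x i)

theorem blk_zero (J : Fin 3 → Matrix (Fin n) (Fin n) ℝ) (A B C : ℝ) (v : Pt n) :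
    blk J 0 A B C *ᵥ v = C • v := by
  rw [blk_mulVec]; simp

theorem blk_nonneg (h : IsQuat J) (x v : Pt n) {A B C : ℝ} (hA : 0 ≤ A) (hB : 0 ≤ B)
    (hC : 0 ≤ C) : 0 ≤ v ⬝ᵥ (blk J x A B C *ᵥ v) := by
  by_cases hx : x = 0
  · rw [hx, blk_zero, dotProduct_smul]
    exact mul_nonneg hC (dot_nn v)
  · have : blk J x A B C = blk J x √A √B √C * blk J x √A √B √C := by
      rw [blk_mul h hx, Real.mul_self_sqrt hA, Real.mul_self_sqrt hB, Real.mul_self_sqrt hC]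
    rw [this, ← Matrix.mulVec_mulVec, Matrix.dotProduct_mulVec, ← Matrix.mulVec_transpose, blk_T]
    exact dot_nn _

theorem blk_le (h : IsQuat J) (x v : Pt n) {A B C M : ℝ} (hA : A ≤ M) (hB : B ≤ M)
    (hC : C ≤ M) : v ⬝ᵥ (blk J x A B C *ᵥ v) ≤ M * (v ⬝ᵥ v) := by
  have h1 := blk_nonneg h x v (sub_nonneg.2 hA) (sub_nonneg.2 hB) (sub_nonneg.2 hC)
  have h2 : blk J x M M M = M • (1 : Matrix (Fin n) (Fin n) ℝ) := by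
    rw [← blk_one J x, blk_smul, mul_one]
  rw [← blk_sub, h2, Matrix.sub_mulVec, dotProduct_sub, Matrix.smul_mulVec, Matrix.one_mulVec,
    dotProduct_smul, smul_eq_mul] at h1
  linarith

theorem quad_add (G : Matrix (Fin n) (Fin n) ℝ) (hG : ∀ v, 0 ≤ v ⬝ᵥ (G *ᵥ v)) (u v : Pt n) :
    (u + v) ⬝ᵥ (G *ᵥ (u + v)) ≤ 2 * (u ⬝ᵥ (G *ᵥ u)) + 2 * (v ⬝ᵥ (G *ᵥ v)) := by
  have := hG (u - v)
  simp only [Matrix.mulVec_add, Matrix.mulVec_sub, add_dotProduct, dotProduct_add, sub_dotProduct,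
    dotProduct_sub] at this ⊢
  linarith

/-- An imaginary quaternion acting on `x`. -/
def Nv (J : Fin 3 → Matrix (Fin n) (Fin n) ℝ) (b : Fin 3 → ℝ) (x : Pt n) : Pt n :=
  b 0 • J 0 *ᵥ x + b 1 • J 1 *ᵥ x + b 2 • J 2 *ᵥ x

theorem Nv_add (b : Fin 3 → ℝ) (x y : Pt n) : Nv J b (x + y) = Nv J b x + Nv J b y := by
  simp only [Nv, Matrix.mulVec_add]; module

theorem Nv_smul (b : Fin 3 → ℝ) (c : ℝ) (x : Pt n) : Nv J b (c • x) = c • Nv J b x := by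
  simp only [Nv, Matrix.mulVec_smul]; module

theorem Nv_Nv (h : IsQuat J) (b : Fin 3 → ℝ) (x : Pt n) :
    Nv J b (Nv J b x) = -((b 0 ^ 2 + b 1 ^ 2 + b 2 ^ 2) • x) := by
  simp only [Nv, Matrix.mulVec_add, Matrix.mulVec_smul, h.v00, h.v11, h.v22, h.v01, h.v10, h.v02,
    h.v20, h.v12, h.v21]
  module

theorem dot_Nv (h : IsQuat J) (b : Fin 3 → ℝ) (x : Pt n) : x ⬝ᵥ Nv J b x = 0 := by
  simp [Nv, dotProduct_add, dotProduct_smul, h.dot_self]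

theorem Nv_dot (h : IsQuat J) (b : Fin 3 → ℝ) (x : Pt n) :
    Nv J b x ⬝ᵥ Nv J b x = (b 0 ^ 2 + b 1 ^ 2 + b 2 ^ 2) * (x ⬝ᵥ x) := by
  simp [Nv, dotProduct_add, add_dotProduct, dotProduct_smul, smul_dotProduct, h.dot_yy]
  ring

theorem blk_Nv (h : IsQuat J) (b : Fin 3 → ℝ) (x : Pt n) (A B C : ℝ) :
    blk J x A B C *ᵥ Nv J b x = B • Nv J b x := by
  by_cases hx : x = 0
  · simp [hx, Nv]
  · simp only [Nv, Matrix.mulVec_add, Matrix.mulVec_smul, blk_y h hx]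
    module

theorem comb_dot (h : IsQuat J) (b : Fin 3 → ℝ) (hb : b 0 ^ 2 + b 1 ^ 2 + b 2 ^ 2 = 1) (x : Pt n)
    (p q : ℝ) : (p • x + q • Nv J b x) ⬝ᵥ (p • x + q • Nv J b x) = (p ^ 2 + q ^ 2) * (x ⬝ᵥ x) := by
  have h1 := dot_Nv h b x
  have h2 : Nv J b x ⬝ᵥ x = 0 := by rw [dotProduct_comm, h1]
  simp only [dotProduct_add, add_dotProduct, dotProduct_smul, smul_dotProduct, h1, h2, Nv_dot h,
    hb, smul_eq_mul]
  ring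

/-- The short path. -/
noncomputable def arc (J : Fin 3 → Matrix (Fin n) (Fin n) ℝ) (b : Fin 3 → ℝ) (θ : ℝ)
    (x w : Pt n) (s : ℝ) : Pt n :=
  Real.cos (θ * s) • x + Real.sin (θ * s) • Nv J b x + s • w

theorem arc_smooth (b : Fin 3 → ℝ) (θ : ℝ) (x w : Pt n) : ContDiff ℝ 1 (arc J b θ x w) := by
  unfold arc
  fun_prop

theorem arc_deriv (h : IsQuat J) (b : Fin 3 → ℝ) (hb : b 0 ^ 2 + b 1 ^ 2 + b 2 ^ 2 = 1) (θ : ℝ)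
    (x w : Pt n) (s : ℝ) : deriv (arc J b θ x w) s =
      θ • Nv J b (arc J b θ x w s) + ((1 : ℝ) • w + (-(θ * s)) • Nv J b w) := by
  have d0 : HasDerivAt (fun s => θ * s) θ s := by simpa using (hasDerivAt_id' s).const_mul θ
  have d := ((d0.cos.smul_const x).add (d0.sin.smul_const (Nv J b x))).add
    ((hasDerivAt_id' s).smul_const w)
  have e : deriv (arc J b θ x w) s = _ := d.deriv
  rw [e]
  simp only [arc, Nv_add, Nv_smul, Nv_Nv h, hb]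
  module

theorem arc_speed (h : IsQuat J) (b : Fin 3 → ℝ) (hb : b 0 ^ 2 + b 1 ^ 2 + b 2 ^ 2 = 1) {θ : ℝ}
    (hθ : θ ∈ Icc 0 Real.pi) (x w : Pt n) {s : ℝ} (hs : s ∈ Icc (0 : ℝ) 1) {A B C M L : ℝ}
    (hA : A ∈ Icc 0 M) (hB : B ∈ Icc 0 M) (hC : C ∈ Icc 0 M)
    (hL : (arc J b θ x w s ⬝ᵥ arc J b θ x w s) * B ≤ L ^ 2) (hw : 34 * M * (w ⬝ᵥ w) ≤ 1) :
    deriv (arc J b θ x w) s ⬝ᵥ (blk J (arc J b θ x w s) A B C *ᵥ deriv (arc J b θ x w) s) ≤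
      32 * L ^ 2 + 1 := by
  rw [arc_deriv h b hb]
  generalize arc J b θ x w s = z at *
  refine (quad_add _ (fun v => blk_nonneg h z v hA.1 hB.1 hC.1) _ _).trans ?_
  have h1 := blk_le h z ((1 : ℝ) • w + (-(θ * s)) • Nv J b w) hA.2 hB.2 hC.2
  rw [comb_dot h b hb] at h1
  rw [Matrix.mulVec_smul, blk_Nv h, smul_dotProduct, dotProduct_smul, dotProduct_smul, Nv_dot h, hb]
  simp only [smul_eq_mul]
  have hθ4 : θ ≤ 4 := hθ.2.trans Real.pi_le_four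
  have t1 : θ ^ 2 ≤ 16 := by nlinarith [hθ.1]
  have t2 : (θ * s) ^ 2 ≤ 16 := by
    have : θ * s ≤ 4 := by nlinarith [hθ.1, hs.1, hs.2]
    nlinarith [mul_nonneg hθ.1 hs.1]
  have t3 : 0 ≤ M * (w ⬝ᵥ w) := mul_nonneg (hA.1.trans hA.2) (dot_nn w)
  have t4 : 0 ≤ (z ⬝ᵥ z) * B := mul_nonneg (dot_nn z) hB.1
  have t5 : θ ^ 2 * ((z ⬝ᵥ z) * B) ≤ 16 * L ^ 2 := mul_le_mul t1 hL t4 (by norm_num)
  have t6 : (θ * s) ^ 2 * (M * (w ⬝ᵥ w)) ≤ 16 * (M * (w ⬝ᵥ w)) := mul_le_mul_of_nonneg_right t2 t3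
  nlinarith

theorem arc_norm (h : IsQuat J) (b : Fin 3 → ℝ) (hb : b 0 ^ 2 + b 1 ^ 2 + b 2 ^ 2 = 1) (θ : ℝ)
    (x w : Pt n) {s : ℝ} (hs : s ∈ Icc (0 : ℝ) 1) :
    arc J b θ x w s ⬝ᵥ arc J b θ x w s ≤ 2 * (x ⬝ᵥ x) + 2 * (w ⬝ᵥ w) := by
  have := quad_add (1 : Matrix (Fin n) (Fin n) ℝ) (fun v => by simpa using dot_nn v)
    (Real.cos (θ * s) • x + Real.sin (θ * s) • Nv J b x) (s • w)
  simp only [Matrix.one_mulVec] at this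
  rw [comb_dot h b hb, Real.cos_sq_add_sin_sq, smul_dotProduct, dotProduct_smul] at this
  simp only [smul_eq_mul] at this
  have t : s * (s * (w ⬝ᵥ w)) ≤ w ⬝ᵥ w := by
    have : s * s ≤ 1 := by nlinarith [hs.1, hs.2]
    nlinarith [dot_nn w]
  unfold arc
  linarith

theorem len_le (g : Ten n) (γ : ℝ → Pt n) (D : ℝ)
    (hD : ∀ s ∈ Icc (0 : ℝ) 1, √(deriv γ s ⬝ᵥ (g (γ s) *ᵥ deriv γ s)) ≤ D) :
    len g γ ≤ ENNReal.ofReal D := by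
  unfold len
  refine (setLIntegral_mono' measurableSet_Icc fun s hs =>
    ENNReal.ofReal_le_ofReal (hD s hs)).trans ?_
  simp

theorem rdist_arc (h : IsQuat J) {A B C : ℝ → ℝ} {M L T : ℝ} (hL0 : 0 ≤ L)
    (hM : ∀ t ∈ Icc 0 T, A t ∈ Icc 0 M ∧ B t ∈ Icc 0 M ∧ C t ∈ Icc 0 M)
    (hL : ∀ t, 0 ≤ t → t * B t ≤ L ^ 2) (b : Fin 3 → ℝ) (hb : b 0 ^ 2 + b 1 ^ 2 + b 2 ^ 2 = 1)
    {θ : ℝ} (hθ : θ ∈ Icc 0 Real.pi) (x w : Pt n) (hT : 2 * (x ⬝ᵥ x) + 2 * (w ⬝ᵥ w) ≤ T)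
    (hw : 34 * M * (w ⬝ᵥ w) ≤ 1) :
    rdist (hopf J A B C) x (Real.cos θ • x + Real.sin θ • Nv J b x + w) ≤
      ENNReal.ofReal (6 * L + 1) := by
  refine iInf₂_le_of_le (arc J b θ x w) ⟨arc_smooth b θ x w, by simp [arc], by simp [arc]⟩ ?_
  refine len_le _ _ _ fun s hs => ?_
  obtain ⟨hA, hB, hC⟩ := hM _ ⟨dot_nn _, (arc_norm h b hb θ x w hs).trans hT⟩
  have := arc_speed h b hb hθ x w hs hA hB hC (hL _ (dot_nn _)) hw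
  refine Real.sqrt_le_iff.2 ⟨by positivity, this.trans ?_⟩
  nlinarith

/-- The invariant map to matrices. -/
def piM (J : Fin 3 → Matrix (Fin n) (Fin n) ℝ) (x : Pt n) : Fin n → Fin n → ℝ := fun i j =>
  x i * x j + (J 0 *ᵥ x) i * (J 0 *ᵥ x) j + (J 1 *ᵥ x) i * (J 1 *ᵥ x) j
    + (J 2 *ᵥ x) i * (J 2 *ᵥ x) j

theorem piM_smooth (J : Fin 3 → Matrix (Fin n) (Fin n) ℝ) : ContDiff ℝ 1 (piM J) := by
  refine contDiff_pi.2 fun i => contDiff_pi.2 fun j => ?_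
  simp only [piM, Matrix.mulVec, dotProduct]
  fun_prop

theorem piM_trace (h : IsQuat J) (x : Pt n) : ∑ i, piM J x i i = 4 * (x ⬝ᵥ x) := by
  have h0 := h.dot_yy 0 0 x
  have h1 := h.dot_yy 1 1 x
  have h2 := h.dot_yy 2 2 x
  simp only [if_true] at h0 h1 h2
  simp only [piM, Finset.sum_add_distrib]
  change x ⬝ᵥ x + (J 0 *ᵥ x) ⬝ᵥ (J 0 *ᵥ x) + (J 1 *ᵥ x) ⬝ᵥ (J 1 *ᵥ x)
    + (J 2 *ᵥ x) ⬝ᵥ (J 2 *ᵥ x) = _
  rw [h0, h1, h2]; ring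

theorem piM_apply (x y : Pt n) : (fun i => ∑ j, piM J x i j * y j) =
    (x ⬝ᵥ y) • x + Nv J (fun a => (J a *ᵥ x) ⬝ᵥ y) x := by
  ext i
  simp only [piM, Nv, dotProduct, Pi.add_apply, Pi.smul_apply, smul_eq_mul, Finset.sum_mul,
    ← Finset.sum_add_distrib]
  exact Finset.sum_congr rfl fun j _ => by ring

theorem piM_inv (h : IsQuat J) (a0 : ℝ) (a : Fin 3 → ℝ)
    (ha : a0 ^ 2 + a 0 ^ 2 + a 1 ^ 2 + a 2 ^ 2 = 1) (x : Pt n) :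
    piM J (a0 • x + Nv J a x) = piM J x := by
  ext i j
  simp only [piM, Nv, Matrix.mulVec_add, Matrix.mulVec_smul, h.v00, h.v11, h.v22, h.v01, h.v10,
    h.v02, h.v20, h.v12, h.v21, Pi.add_apply, Pi.smul_apply, Pi.neg_apply, smul_eq_mul]
  linear_combination (x i * x j + (J 0 *ᵥ x) i * (J 0 *ᵥ x) j + (J 1 *ᵥ x) i * (J 1 *ᵥ x) j
    + (J 2 *ᵥ x) i * (J 2 *ᵥ x) j) * ha

theorem piM_sep (h : IsQuat J) {x y : Pt n} (e : piM J x = piM J y) :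
    ∃ θ ∈ Icc 0 Real.pi, ∃ b : Fin 3 → ℝ, b 0 ^ 2 + b 1 ^ 2 + b 2 ^ 2 = 1 ∧
      y = Real.cos θ • x + Real.sin θ • Nv J b x := by
  have ht : x ⬝ᵥ x = y ⬝ᵥ y := by
    have := piM_trace h x
    rw [e, piM_trace h] at this
    linarith
  by_cases hx : x = 0
  · refine ⟨0, ⟨le_rfl, Real.pi_pos.le⟩, ![1, 0, 0], by simp, ?_⟩
    have : y = 0 := dotProduct_self_eq_zero.1 (by rw [← ht, hx]; simp)
    simp [hx, this]
  have hp := dot_pos hx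
  have h1 := piM_apply (J := J) x y
  rw [e, piM_apply] at h1
  have h2 : Nv J (fun a => (J a *ᵥ y) ⬝ᵥ y) y = 0 := by simp [Nv, h.self_dot]
  rw [h2, add_zero, ← ht] at h1
  obtain ⟨a0, a, hy⟩ : ∃ (a0 : ℝ) (a : Fin 3 → ℝ), y = a0 • x + Nv J a x := by
    refine ⟨(x ⬝ᵥ x)⁻¹ * (x ⬝ᵥ y), fun a => (x ⬝ᵥ x)⁻¹ * ((J a *ᵥ x) ⬝ᵥ y), ?_⟩
    have : y = (x ⬝ᵥ x)⁻¹ • ((x ⬝ᵥ x) • y) := by rw [smul_smul, inv_mul_cancel₀ hp.ne', one_smul]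
    conv_lhs => rw [this, h1]
    simp only [Nv]
    module
  have h3 : a0 ^ 2 + (a 0 ^ 2 + a 1 ^ 2 + a 2 ^ 2) = 1 := by
    have h4 := dot_Nv h a x
    have h5 : Nv J a x ⬝ᵥ x = 0 := by rw [dotProduct_comm, h4]
    have h6 : y ⬝ᵥ y = (a0 ^ 2 + (a 0 ^ 2 + a 1 ^ 2 + a 2 ^ 2)) * (x ⬝ᵥ x) := by
      rw [hy]
      simp only [dotProduct_add, add_dotProduct, dotProduct_smul, smul_dotProduct, h4, h5,
        Nv_dot h, smul_eq_mul]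
      ring
    rw [← ht] at h6
    exact mul_right_cancel₀ hp.ne' (by linarith)
  have hq : 0 ≤ a 0 ^ 2 + a 1 ^ 2 + a 2 ^ 2 := by positivity
  have hlo : -1 ≤ a0 := by nlinarith
  have hhi : a0 ≤ 1 := by nlinarith
  have hs : Real.sin (Real.arccos a0) = √(a 0 ^ 2 + a 1 ^ 2 + a 2 ^ 2) := by
    rw [Real.sin_arccos]; congr 1; linarith
  refine ⟨Real.arccos a0, ⟨Real.arccos_nonneg _, Real.arccos_le_pi _⟩, ?_⟩
  rw [Real.cos_arccos hlo hhi, hs]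
  rcases hq.eq_or_lt with h0 | h0
  · refine ⟨![1, 0, 0], by simp, ?_⟩
    have a0' : a 0 = 0 := by nlinarith [sq_nonneg (a 0), sq_nonneg (a 1), sq_nonneg (a 2)]
    have a1' : a 1 = 0 := by nlinarith [sq_nonneg (a 0), sq_nonneg (a 1), sq_nonneg (a 2)]
    have a2' : a 2 = 0 := by nlinarith [sq_nonneg (a 0), sq_nonneg (a 1), sq_nonneg (a 2)]
    rw [hy, ← h0]
    simp [Nv, a0', a1', a2']
  · have hr := Real.sqrt_pos.2 h0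
    have hr2 := Real.sq_sqrt hq
    generalize √(a 0 ^ 2 + a 1 ^ 2 + a 2 ^ 2) = r at *
    refine ⟨fun i => a i / r, by field_simp; linarith, ?_⟩
    rw [hy]
    simp only [Nv, smul_add, smul_smul, mul_div_cancel₀ _ hr.ne']

theorem piM_slice (h : IsQuat J) (e x : Pt n) :
    ∃ y, (∀ a, (J a *ᵥ e) ⬝ᵥ y = 0) ∧ piM J x = piM J y := by
  by_cases h0 : (e ⬝ᵥ x) ^ 2 + ((J 0 *ᵥ e) ⬝ᵥ x) ^ 2 + ((J 1 *ᵥ e) ⬝ᵥ x) ^ 2
      + ((J 2 *ᵥ e) ⬝ᵥ x) ^ 2 = 0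
  · refine ⟨x, fun a => ?_, rfl⟩
    have := sq_nonneg (e ⬝ᵥ x)
    have := sq_nonneg ((J 0 *ᵥ e) ⬝ᵥ x)
    have := sq_nonneg ((J 1 *ᵥ e) ⬝ᵥ x)
    have := sq_nonneg ((J 2 *ᵥ e) ⬝ᵥ x)
    apply pow_eq_zero_iff (two_ne_zero) |>.1
    fin_cases a <;> simp only [Fin.zero_eta, Fin.mk_one, Fin.reduceFinMk] <;> linarith
  have hq : 0 ≤ (e ⬝ᵥ x) ^ 2 + ((J 0 *ᵥ e) ⬝ᵥ x) ^ 2 + ((J 1 *ᵥ e) ⬝ᵥ x) ^ 2
      + ((J 2 *ᵥ e) ⬝ᵥ x) ^ 2 := by positivity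
  have hr := Real.sqrt_pos.2 (lt_of_le_of_ne hq (Ne.symm h0))
  have hr2 := Real.sq_sqrt hq
  generalize √((e ⬝ᵥ x) ^ 2 + ((J 0 *ᵥ e) ⬝ᵥ x) ^ 2 + ((J 1 *ᵥ e) ⬝ᵥ x) ^ 2
      + ((J 2 *ᵥ e) ⬝ᵥ x) ^ 2) = r at *
  refine ⟨((e ⬝ᵥ x) / r) • x + Nv J (fun a => -((J a *ᵥ e) ⬝ᵥ x) / r) x, fun a => ?_,
    (piM_inv h _ _ (by field_simp; linarith) x).symm⟩
  have sk : ∀ (b : Fin 3) (u : Pt n), u ⬝ᵥ (J b *ᵥ x) = -((J b *ᵥ u) ⬝ᵥ x) := fun b u => by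
    rw [h.skew, neg_neg]
  simp only [Nv, dotProduct_add, dotProduct_smul, smul_eq_mul, sk]
  fin_cases a <;>
    simp only [Fin.zero_eta, Fin.mk_one, Fin.reduceFinMk, h.v00, h.v11, h.v22, h.v01, h.v10,
      h.v02, h.v20, h.v12, h.v21, neg_dotProduct] <;> ring

theorem ball_compact (T : ℝ) : IsCompact {x : Pt n | x ⬝ᵥ x ≤ T} := by
  refine Metric.isCompact_of_isClosed_isBounded (isClosed_le (by fun_prop) continuous_const) ?_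
  refine (Metric.isBounded_closedBall (x := (0 : Pt n)) (r := 1 + |T|)).subset fun x hx => ?_
  rw [mem_closedBall_zero_iff, pi_norm_le_iff_of_nonneg (by positivity)]
  intro i
  have h1 : x i * x i ≤ x ⬝ᵥ x :=
    Finset.single_le_sum (f := fun i => x i * x i) (fun i _ => mul_self_nonneg _) (Finset.mem_univ i)
  have h2 : x ⬝ᵥ x ≤ T := hx
  rw [Real.norm_eq_abs, abs_le]
  constructor <;> nlinarith [le_abs_self T, sq_nonneg (x i - 1), sq_nonneg (x i + 1)]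

theorem near_orbit (h : IsQuat J) (e : Fin n → Fin n → ℝ) {T δ : ℝ} (hδ : 0 < δ) :
    ∃ U ∈ 𝓝 e, ∀ x y : Pt n, x ⬝ᵥ x ≤ T → y ⬝ᵥ y ≤ T → piM J x ∈ U → piM J y ∈ U →
      ∃ θ ∈ Icc 0 Real.pi, ∃ b : Fin 3 → ℝ, b 0 ^ 2 + b 1 ^ 2 + b 2 ^ 2 = 1 ∧ ∃ w : Pt n,
        w ⬝ᵥ w < δ ∧ y = Real.cos θ • x + Real.sin θ • Nv J b x + w := by
  let Bad : Set (Pt n × Pt n) := ⋂ θ ∈ Icc 0 Real.pi,
    ⋂ b ∈ {b : Fin 3 → ℝ | b 0 ^ 2 + b 1 ^ 2 + b 2 ^ 2 = 1},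
      {p | δ ≤ (p.2 - (Real.cos θ • p.1 + Real.sin θ • Nv J b p.1)) ⬝ᵥ
        (p.2 - (Real.cos θ • p.1 + Real.sin θ • Nv J b p.1))}
  have hcl : IsClosed Bad := isClosed_biInter fun θ _ => isClosed_biInter fun b _ =>
    isClosed_le continuous_const (by unfold Nv; fun_prop)
  have hK := ((ball_compact (n := n) T).prod (ball_compact (n := n) T)).inter_right hcl
  have hc := (piM_smooth J).continuous
  have hI := (hK.image (f := fun p => (piM J p.1, piM J p.2)) (by fun_prop)).isClosed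
  have hne : (e, e) ∈ ((fun p : Pt n × Pt n => (piM J p.1, piM J p.2)) ''
      ({x : Pt n | x ⬝ᵥ x ≤ T} ×ˢ {x : Pt n | x ⬝ᵥ x ≤ T} ∩ Bad))ᶜ := by
    rintro ⟨p, ⟨-, hp⟩, hpe⟩
    obtain ⟨h1, h2⟩ := Prod.mk.inj hpe
    obtain ⟨θ, hθ, b, hb, hy⟩ := piM_sep h (h1.trans h2.symm)
    simp only [Bad, mem_iInter, mem_ofPred_eq] at hp
    have := hp θ hθ b hb
    rw [← hy, sub_self] at this
    simp at this
    linarith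
  obtain ⟨U, hU, V, hV, hUV⟩ := mem_nhds_prod_iff.1 (hI.isOpen_compl.mem_nhds hne)
  refine ⟨U ∩ V, inter_mem hU hV, fun x y hx hy h1 h2 => ?_⟩
  by_contra hcon
  refine hUV (show (piM J x, piM J y) ∈ U ×ˢ V from ⟨h1.1, h2.2⟩) ⟨(x, y), ⟨⟨hx, hy⟩, ?_⟩, rfl⟩
  simp only [Bad, mem_iInter, mem_ofPred_eq]
  intro θ hθ b hb
  by_contra hlt
  exact hcon ⟨θ, hθ, b, hb, _, not_le.1 hlt, by abel⟩

end Vale.Agent.P210H
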