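import Vale.Agent.P210H.Defs

/-! A map to a low-dimensional complex from a map with low-dimensional image. -/

namespace Vale.Agent.P210H

open scoped ENNReal Topology Manifold ContDiff
open Filter Set MeasureTheory

/-- Generic weights. -/
theorem generic {ι S : Type} [Countable ι] [NormedAddCommGroup S] [NormedSpace ℝ S]
    [FiniteDimensional ℝ S] (k : ℕ) (hS : Module.finrank ℝ S ≤ k) (O : Set S) (ψ : ι → S → ℝ)
    (hψ : ∀ i, ∀ y ∈ O, ContDiffAt ℝ 1 (ψ i) y) :
    ∃ a : ι → ℝ, (∀ i, a i ∈ Icc (0 : ℝ) 1) ∧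
      ∀ T : Finset ι, T.card = k + 2 → ∀ y ∈ O, ∀ c : ℝ, ¬ ∀ i ∈ T, a i = c - ψ i y := by
  have : IsProbabilityMeasure (volume.restrict (Icc (0 : ℝ) 1)) := ⟨by simp⟩
  set μ := Measure.infinitePi (fun _ : ι => volume.restrict (Icc (0 : ℝ) 1)) with hμ
  have h1 : ∀ᵐ a ∂μ, ∀ i, a i ∈ Icc (0 : ℝ) 1 := by
    rw [ae_all_iff]
    intro i
    refine ae_of_ae_map (f := fun a : ι → ℝ => a i) (p := fun t => t ∈ Icc (0 : ℝ) 1)
      (measurable_pi_apply i).aemeasurable ?_
    rw [hμ, Measure.infinitePi_map_eval]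
    exact ae_restrict_mem measurableSet_Icc
  have h2 : ∀ᵐ a ∂μ, ∀ T : Finset ι, T.card = k + 2 → ∀ y ∈ O, ∀ c : ℝ,
      ¬ ∀ i ∈ T, a i = c - ψ i y := by
    rw [ae_all_iff]
    intro T
    by_cases hT : T.card = k + 2
    swap
    · exact Eventually.of_forall fun a h => absurd h hT
    let F : S × ℝ → (T → ℝ) := fun p i => p.2 - ψ i p.1
    have hd : dimH (F '' (O ×ˢ univ)) ≤ dimH (O ×ˢ (univ : Set ℝ)) := by
      apply dimH_image_le_of_locally_lipschitzOn
      intro p hp
      have : ContDiffAt ℝ 1 F p := by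
        refine contDiffAt_pi.2 fun i => contDiffAt_snd.sub ?_
        exact (hψ i p.1 hp.1).comp p contDiffAt_fst
      obtain ⟨C, t, ht, hC⟩ := this.exists_lipschitzOnWith
      exact ⟨C, t, mem_nhdsWithin_of_mem_nhds ht, hC⟩
    have hd2 : dimH (F '' (O ×ˢ univ)) < ((k + 2 : ℕ) : NNReal) := by
      refine lt_of_le_of_lt (hd.trans (dimH_mono (subset_univ _))) ?_
      rw [Real.dimH_univ_eq_finrank, Module.finrank_prod, Module.finrank_self]
      have : Module.finrank ℝ S + 1 < k + 2 := by omega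
      exact_mod_cast this
    have hz : (volume : Measure (T → ℝ)) (F '' (O ×ˢ univ)) = 0 := by
      have := hausdorffMeasure_of_dimH_lt hd2
      rw [← hausdorffMeasure_pi_real, Fintype.card_coe, hT]
      exact_mod_cast this
    have h3 : ∀ᵐ a ∂μ, T.restrict (π := fun _ => ℝ) a ∉ F '' (O ×ˢ univ) := by
      refine ae_of_ae_map (f := T.restrict (π := fun _ => ℝ))
        (p := fun b : T → ℝ => b ∉ F '' (O ×ˢ univ))
        (Finset.measurable_restrict T).aemeasurable ?_
      rw [hμ, Measure.infinitePi_map_restrict, ← Measure.restrict_pi_pi]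
      exact ae_restrict_of_ae (measure_eq_zero_iff_ae_notMem.1 hz)
    filter_upwards [h3] with a ha _ y hy c hc
    exact ha ⟨(y, c), ⟨hy, trivial⟩, funext fun i => (hc i i.2).symm⟩
  obtain ⟨a, ha⟩ := (h1.and h2).exists
  exact ⟨a, ha⟩

/-- Thinning a locally finite family without `k + 2` equal positive values. -/
theorem thin {ι X : Type} [TopologicalSpace X] (k : ℕ) (v : ι → X → ℝ)
    (hc : ∀ i, Continuous (v i)) (h0 : ∀ i x, 0 ≤ v i x)
    (hl : LocallyFinite fun i => Function.support (v i))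
    (hN : ∀ i, {j | ∃ x, v i x ≠ 0 ∧ v j x ≠ 0}.Finite) (hp : ∀ x, ∃ i, 0 < v i x)
    (hg : ∀ (x : X) (T : Finset ι) (c : ℝ), T.card = k + 2 → 0 < c → ¬ ∀ i ∈ T, v i x = c) :
    ∃ w : ι → X → ℝ, (∀ i, Continuous (w i)) ∧ (∀ i x, 0 ≤ w i x) ∧
      (∀ i x, w i x ≠ 0 → v i x ≠ 0) ∧ (∀ x, ∃ i, 0 < w i x) ∧
      ∀ x (T : Finset ι), (∀ i ∈ T, w i x ≠ 0) → T.card ≤ k + 1 := by
  classical
  refine ⟨fun i x => v i x * ∏ T ∈ (hN i).toFinset.powersetCard (k + 2),
    ∑ j ∈ T, max 0 (v i x - v j x), fun i => ?_, fun i x => ?_, fun i x h => ?_, fun x => ?_,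
    fun x T hT => ?_⟩
  · refine (hc i).mul (continuous_finsetProd _ fun T _ => continuous_finsetSum _ fun j _ => ?_)
    exact continuous_const.max ((hc i).sub (hc j))
  · exact mul_nonneg (h0 i x) (Finset.prod_nonneg fun T _ =>
      Finset.sum_nonneg fun j _ => le_max_left _ _)
  · exact left_ne_zero_of_mul h
  · obtain ⟨i0, hi0⟩ := hp x
    have hf : {i | x ∈ Function.support (v i)}.Finite := hl.point_finite x
    obtain ⟨i, hi, hmax⟩ := Set.exists_max_image _ (fun i => v i x) hf ⟨i0, hi0.ne'⟩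
    have hi' : 0 < v i x := lt_of_lt_of_le hi0 (hmax i0 hi0.ne')
    have hle : ∀ j, v j x ≤ v i x := fun j => by
      by_cases hj : v j x = 0
      · rw [hj]; exact hi'.le
      · exact hmax j hj
    refine ⟨i, mul_pos hi' (Finset.prod_pos fun T hT => ?_)⟩
    have hcard := (Finset.mem_powersetCard.1 hT).2
    have := hg x T (v i x) hcard hi'
    push Not at this
    obtain ⟨j, hj, hne⟩ := this
    refine Finset.sum_pos' (fun j _ => le_max_left _ _) ⟨j, hj, ?_⟩
    exact lt_max_of_lt_right (sub_pos.2 (lt_of_le_of_ne (hle j) hne))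
  · by_contra hcon
    obtain ⟨T', hT', hcard⟩ := Finset.exists_subset_card_eq (s := T) (n := k + 2) (by omega)
    have hne : T'.Nonempty := Finset.card_pos.1 (by omega)
    obtain ⟨i, hi, hmin⟩ := Finset.exists_min_image T' (fun i => v i x) hne
    have h1 := hT i (hT' hi)
    apply right_ne_zero_of_mul h1
    refine Finset.prod_eq_zero (i := T') (Finset.mem_powersetCard.2 ⟨fun j hj => ?_, hcard⟩) ?_
    · simp only [Finite.mem_toFinset, mem_ofPred_eq]
      exact ⟨x, left_ne_zero_of_mul h1, left_ne_zero_of_mul (hT j (hT' hj))⟩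
    · exact Finset.sum_eq_zero fun j hj => max_eq_left (sub_nonpos.2 (hmin j hj))

/-- The map to the nerve. -/
theorem nerve {ι X : Type} [TopologicalSpace X] (d : X → X → ℝ≥0∞) (k : ℕ) (D : ℝ)
    (w : ι → X → ℝ) (hc : ∀ i, Continuous (w i)) (h0 : ∀ i x, 0 ≤ w i x)
    (hl : LocallyFinite fun i => Function.support (w i))
    (hN : ∀ i, {j | ∃ x, w i x ≠ 0 ∧ w j x ≠ 0}.Finite) (hp : ∀ x, ∃ i, 0 < w i x)
    (hk : ∀ x (T : Finset ι), (∀ i ∈ T, w i x ≠ 0) → T.card ≤ k + 1)
    (hd : ∀ i x y, w i x ≠ 0 → w i y ≠ 0 → d x y ≤ ENNReal.ofReal D) : WidthLe d k D := by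
  classical
  have hf : ∀ x, (Function.support fun i => w i x).Finite := fun x => hl.point_finite x
  have hs : ∀ x, 0 < ∑ᶠ i, w i x := fun x => by
    obtain ⟨i, hi⟩ := hp x
    exact finsum_pos (fun i => h0 i x) ⟨i, hi⟩ (hf x)
  refine ⟨ι, ⟨{s | s.Nonempty ∧ ∃ x, ∀ i ∈ s, w i x ≠ 0}, ?_⟩,
    fun x i => w i x / ∑ᶠ j, w j x, ?_, fun v => ?_, ?_, fun x => ?_, fun x y hxy => ?_⟩
  · rintro s ⟨hs, x, hx⟩
    exact ⟨hs, fun t hts ht => ⟨ht, x, fun i hi => hx i (hts hi)⟩⟩
  · rintro s ⟨-, x, hx⟩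
    exact hk x s hx
  · refine ((hN v).toFinset.powerset.finite_toSet).subset ?_
    rintro s ⟨⟨-, x, hx⟩, hv⟩
    simp only [Finset.coe_powerset, Finite.coe_toFinset, mem_preimage, mem_powerset_iff]
    exact fun j hj => ⟨x, hx v hv, hx j hj⟩
  · exact continuous_pi fun i => (hc i).div (continuous_finsum hc hl) fun x => (hs x).ne'
  · obtain ⟨i, hi⟩ := hp x
    refine ⟨(hf x).toFinset, ⟨⟨i, by simpa using hi.ne'⟩, x, fun j hj => by simpa using hj⟩,
      fun j => div_nonneg (h0 j x) (hs x).le, fun j hj => ?_, ?_⟩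
    · have : w j x = 0 := by simpa using hj
      simp only [this, zero_div]
    · simp only
      rw [← Finset.sum_div, ← finsum_eq_sum _ (hf x), div_self (hs x).ne']
  · obtain ⟨i, hi⟩ := hp x
    refine hd i x y hi.ne' fun h => ?_
    have := congrFun hxy i
    simp only [h, zero_div] at this
    exact (div_pos hi (hs x)).ne' this

theorem width_of_factor {X E S : Type} [TopologicalSpace X] [NormedAddCommGroup E]
    [NormedSpace ℝ E] [FiniteDimensional ℝ E] [NormedAddCommGroup S] [NormedSpace ℝ S]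
    [FiniteDimensional ℝ S] (d : X → X → ℝ≥0∞) (k : ℕ) (D : ℝ) (π : X → E) (hπ : Continuous π)
    (σ : S → E) (O : Set S) (hσ : ∀ y ∈ O, ContDiffAt ℝ 1 σ y) (hS : Module.finrank ℝ S ≤ k)
    (hr : ∀ x, ∃ y ∈ O, π x = σ y)
    (hU : ∀ e : E, ∃ U ∈ 𝓝 e, ∀ x y, π x ∈ U → π y ∈ U → d x y ≤ ENNReal.ofReal D) :
    WidthLe d k D := by
  choose U hU hd using hU
  obtain ⟨ι, f, hf⟩ := SmoothBumpCovering.exists_isSubordinate (I := 𝓘(ℝ, E)) (M := E)
    (s := univ) (U := U) isClosed_univ fun x _ => hU x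
  have hl : LocallyFinite fun i => Function.support (f i) := f.locallyFinite
  have : Countable ι := by
    rw [← countable_univ_iff]
    exact hl.countable_univ fun i => ⟨f.c i, by simp⟩
  have hsm : ∀ i, ContDiff ℝ 1 (f i) := fun i =>
    ((f i).contMDiff.contDiff).of_le (by exact_mod_cast le_top)
  obtain ⟨a, ha, hg⟩ := generic k hS O (fun i y => 2 * f i (σ y)) fun i y hy =>
    contDiffAt_const.mul ((hsm i).contDiffAt.comp y (hσ y hy))
  let v : ι → X → ℝ := fun i x => max 0 (2 * f i (π x) + a i - 1)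
  have hv : ∀ i x, v i x ≠ 0 → f i (π x) ≠ 0 := fun i x h h0 => by
    apply h
    simp only [v, h0]
    exact max_eq_left (by linarith [(ha i).2])
  have hlv : LocallyFinite fun i => Function.support (v i) :=
    (hl.preimage_continuous hπ).subset fun i x hx => hv i x hx
  have hN : ∀ i, {j | ∃ x, v i x ≠ 0 ∧ v j x ≠ 0}.Finite := fun i => by
    refine (hl.finite_nonempty_inter_compact (f i).hasCompactSupport).subset ?_
    rintro j ⟨x, hi, hj⟩
    exact ⟨π x, hv j x hj, subset_tsupport _ (hv i x hi)⟩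
  obtain ⟨w, hw1, hw2, hw3, hw4, hw5⟩ := thin k v
    (fun i => continuous_const.max (((continuous_const.mul
      ((hsm i).continuous.comp hπ)).add continuous_const).sub continuous_const))
    (fun i x => le_max_left _ _) hlv hN
    (fun x => by
      obtain ⟨i, hi⟩ := f.eventuallyEq_one' (π x) trivial
      have : f i (π x) = 1 := hi.eq_of_nhds
      refine ⟨i, lt_max_of_lt_right ?_⟩
      rw [this]
      linarith [(ha i).1])
    (fun x T c hT hc h => by
      obtain ⟨y, hy, e⟩ := hr x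
      refine hg T hT y hy (c + 1) fun i hi => ?_
      have h1 : max 0 (2 * f i (π x) + a i - 1) = c := h i hi
      rw [← e]
      rcases max_choice 0 (2 * f i (π x) + a i - 1) with h2 | h2 <;> linarith)
  refine nerve d k D w hw1 hw2 (hlv.subset fun i x hx => hw3 i x hx)
    (fun i => (hN i).subset ?_) hw4 hw5 fun i x y hx hy => ?_
  · rintro j ⟨x, hi, hj⟩
    exact ⟨x, hw3 i x hi, hw3 j x hj⟩
  · exact hd (f.c i) x y (hf i (subset_tsupport _ (hv i x (hw3 i x hx))))
      (hf i (subset_tsupport _ (hv i y (hw3 i y hy))))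

end Vale.Agent.P210H
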