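import Vale.Agent.P366.Scal
import Vale.Agent.P366.GenR
import Vale.Agent.P366.Jet
import Vale.Agent.P366.Chr
import Vale.Agent.P366.VW
import Vale.Agent.P366.Q
import Vale.Agent.P210H.Wid
import Vale.Agent.P210H.Ode
import Vale.Agent.P210H.Geo

/-! Assembly. -/

namespace Vale.Agent.P210H

open scoped Matrix ENNReal Topology ContDiff
open Filter Set MeasureTheory Vale.Agent.P366

variable {n : ℕ} {J : Fin 3 → Matrix (Fin n) (Fin n) ℝ}

theorem scal_all : ScalStmt :=
  scal_pf genR_pf smooth_pf rad_pf (chr_pf jet_pf) v_pf w_pf q_pf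

theorem width_of_bound (h : IsQuat J) (hn : 4 ≤ n) {A B C : ℝ → ℝ} (hA : Continuous A)
    (hB : Continuous B) (hC : Continuous C) (hp : ∀ t, 0 ≤ t → 0 < A t ∧ 0 < B t ∧ 0 < C t)
    {L : ℝ} (hL0 : 0 ≤ L) (hL : ∀ t, 0 ≤ t → t * B t ≤ L ^ 2) :
    WidthLe (rdist (hopf J A B C)) (n - 3) (6 * L + 1) := by
  let e : Pt n := Pi.single ⟨0, by omega⟩ 1
  have he : e ⬝ᵥ e = 1 := by simp [e]
  let Lm : Pt n →ₗ[ℝ] (Fin 3 → ℝ) :=
    { toFun := fun y a => (J a *ᵥ e) ⬝ᵥ y
      map_add' := fun y z => by ext a; simp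
      map_smul' := fun c y => by ext a; simp }
  have hsurj : LinearMap.range Lm = ⊤ := by
    rw [LinearMap.range_eq_top]
    intro b
    refine ⟨Nv J b e, funext fun a => ?_⟩
    change (J a *ᵥ e) ⬝ᵥ Nv J b e = b a
    simp only [Nv, dotProduct_add, dotProduct_smul, h.dot_yy, he]
    fin_cases a <;> simp
  have hrank : Module.finrank ℝ (LinearMap.ker Lm) ≤ n - 3 := by
    have := Lm.finrank_range_add_finrank_ker
    rw [hsurj] at this
    simp at this
    omega
  refine width_of_factor _ _ _ (piM J) (piM_smooth J).continuous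
    (fun y : LinearMap.ker Lm => piM J y) univ
    (fun y _ => ((piM_smooth J).comp (LinearMap.ker Lm).subtypeL.contDiff).contDiffAt) hrank
    (fun x => ?_) fun m => ?_
  · obtain ⟨y, hy, e⟩ := piM_slice h e x
    exact ⟨⟨y, funext hy⟩, trivial, e⟩
  · set T : ℝ := |∑ i, m i i| + 1 with hT
    have hT0 : 0 < T := by positivity
    obtain ⟨M, hM⟩ := (isCompact_Icc (a := (0 : ℝ)) (b := 2 * T + 2)).bddAbove_image
      (f := fun t => A t + B t + C t) (by fun_prop)
    have hM' : ∀ t ∈ Icc 0 (2 * T + 2), A t ∈ Icc 0 M ∧ B t ∈ Icc 0 M ∧ C t ∈ Icc 0 M := by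
      intro t ht
      obtain ⟨a, b, c⟩ := hp t ht.1
      have : A t + B t + C t ≤ M := hM ⟨t, ht, rfl⟩
      exact ⟨⟨a.le, by linarith⟩, ⟨b.le, by linarith⟩, ⟨c.le, by linarith⟩⟩
    have hM0 : 0 ≤ M := by
      have := (hM' 0 ⟨le_rfl, by positivity⟩).1
      exact this.1.trans this.2
    obtain ⟨U, hU, hnear⟩ := near_orbit h m (T := T) (δ := 1 / (34 * M + 1)) (by positivity)
    have hV : {m' : Fin n → Fin n → ℝ | ∑ i, m' i i < T} ∈ 𝓝 m :=
      (isOpen_lt (by fun_prop) continuous_const).mem_nhds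
        (show ∑ i, m i i < T by linarith [le_abs_self (∑ i, m i i)])
    refine ⟨_, inter_mem hU hV, fun x y hx hy => ?_⟩
    have hx2 : ∑ i, piM J x i i < T := hx.2
    have hy2 : ∑ i, piM J y i i < T := hy.2
    rw [piM_trace h] at hx2 hy2
    have hx3 : x ⬝ᵥ x ≤ T := by linarith [dot_nn x]
    obtain ⟨θ, hθ, b, hb, w, hw, rfl⟩ := hnear x y hx3 (by linarith [dot_nn y]) hx.1 hy.1
    rw [lt_div_iff₀ (by positivity)] at hw
    have := dot_nn w
    exact rdist_arc h hL0 hM' hL b hb hθ x w (by nlinarith) (by nlinarith)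

theorem ray_dist (h : IsQuat J) {A B C : ℝ → ℝ} (hA : Continuous A) {e : Pt n} (he : e ⬝ᵥ e = 1)
    {s s' : ℝ} (hs : 0 < s) (hs' : 0 < s') :
    rdist (hopf J A B C) (s • e) (s' • e) ≤ ENNReal.ofReal |∫ u in s..s', √(A (u ^ 2))| := by
  have he0 : e ≠ 0 := by rintro rfl; simp at he
  refine iInf₂_le_of_le (fun τ => (s + (s' - s) * τ) • e) ⟨by fun_prop, by simp, by simp⟩ ?_
  have hd : ∀ τ, deriv (fun τ => (s + (s' - s) * τ) • e) τ = (s' - s) • e := fun τ => by
    have := (((hasDerivAt_id' τ).const_mul (s' - s)).const_add s).smul_const e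
    simpa using this.deriv
  have hc : Continuous fun τ : ℝ => √(A ((s + (s' - s) * τ) ^ 2)) := by fun_prop
  have h1 : len (hopf J A B C) (fun τ => (s + (s' - s) * τ) • e) =
      ∫⁻ τ in Icc (0 : ℝ) 1, ENNReal.ofReal (|s' - s| * √(A ((s + (s' - s) * τ) ^ 2))) := by
    refine setLIntegral_congr_fun measurableSet_Icc fun τ hτ => ?_
    have hu : 0 < s + (s' - s) * τ := by
      rcases le_total s s' with h1 | h1
      · nlinarith [mul_nonneg (sub_nonneg.2 h1) hτ.1]
      · nlinarith [mul_nonneg (sub_nonneg.2 h1) (sub_nonneg.2 hτ.2)]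
    generalize hu' : s + (s' - s) * τ = u at hu
    simp only [hd, hu']
    have hx : u • e ≠ 0 := smul_ne_zero hu.ne' he0
    have h2 : (u • e) ⬝ᵥ (u • e) = u ^ 2 := by
      rw [smul_dotProduct, dotProduct_smul, he]; simp [sq]
    have h3 : hopf J A B C (u • e) *ᵥ e = A (u ^ 2) • e := by
      have := blk_x h hx (A (u ^ 2)) (B (u ^ 2)) (C (u ^ 2))
      rw [Matrix.mulVec_smul, smul_comm] at this
      unfold hopf
      rw [h2]
      exact smul_right_injective _ hu.ne' this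
    rw [Matrix.mulVec_smul, h3, smul_dotProduct, dotProduct_smul, dotProduct_smul, he]
    simp only [smul_eq_mul, mul_one]
    rw [← mul_assoc, Real.sqrt_mul (mul_self_nonneg _), Real.sqrt_mul_self_eq_abs]
  have hc2 : Continuous fun τ : ℝ => |s' - s| * √(A ((s + (s' - s) * τ) ^ 2)) :=
    continuous_const.mul hc
  rw [h1, ← ofReal_integral_eq_lintegral_ofReal hc2.integrableOn_Icc
    (Eventually.of_forall fun τ => by positivity)]
  apply ENNReal.ofReal_le_ofReal
  rw [integral_Icc_eq_integral_Ioc, ← intervalIntegral.integral_of_le zero_le_one,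
    intervalIntegral.integral_const_mul]
  have h4 := intervalIntegral.mul_integral_comp_add_mul (a := 0) (b := 1)
    (f := fun u => √(A (u ^ 2))) (s' - s) s
  simp only [mul_zero, add_zero, mul_one, add_sub_cancel] at h4
  rw [← h4, abs_mul]
  exact mul_le_mul_of_nonneg_left (le_abs_self _) (abs_nonneg _)

theorem ray_unbounded (h : IsQuat J) (hn : 4 ≤ n) {A B C : ℝ → ℝ} (hA : Continuous A)
    (hc : Complete (hopf J A B C)) (s0 : ℝ) (hs0 : 0 < s0) (M : ℝ) :
    ∃ s, s0 ≤ s ∧ M < ∫ u in s0..s, √(A (u ^ 2)) := by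
  by_contra hcon
  push Not at hcon
  let i0 : Fin n := ⟨0, by omega⟩
  let e : Pt n := Pi.single i0 1
  have he : e ⬝ᵥ e = 1 := by simp [e]
  have hi : ∀ a b : ℝ, IntervalIntegrable (fun u => √(A (u ^ 2))) volume a b := fun a b =>
    Continuous.intervalIntegrable (by fun_prop) a b
  let I : ℕ → ℝ := fun k => ∫ u in s0..(s0 + k), √(A (u ^ 2))
  have hsub : ∀ k l : ℕ, I l - I k = ∫ u in (s0 + k)..(s0 + l), √(A (u ^ 2)) := fun k l =>
    intervalIntegral.integral_interval_sub_left (hi _ _) (hi _ _)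
  have hmono : Monotone I := fun k l hkl => by
    rw [← sub_nonneg, hsub]
    refine intervalIntegral.integral_nonneg ?_ fun u _ => Real.sqrt_nonneg _
    have : (k : ℝ) ≤ l := by exact_mod_cast hkl
    linarith
  have hbdd : BddAbove (range I) := ⟨M, by
    rintro _ ⟨k, rfl⟩
    exact hcon _ (le_add_of_nonneg_right (Nat.cast_nonneg k))⟩
  have hcau := Metric.cauchySeq_iff.1 (tendsto_atTop_ciSup hmono hbdd).cauchySeq
  obtain ⟨y, hy⟩ := hc (fun k => (s0 + k) • e) fun ε hε => by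
    obtain ⟨r, hr0, hr1, hr2⟩ := ENNReal.lt_iff_exists_real_btwn.1 hε
    have hr : 0 < r := ENNReal.ofReal_pos.1 hr1
    obtain ⟨N, hN⟩ := hcau r hr
    refine ⟨N, fun k hk l hl => ?_⟩
    refine lt_of_le_of_lt ((ray_dist h hA he (by positivity) (by positivity)).trans ?_) hr2
    apply ENNReal.ofReal_le_ofReal
    rw [← hsub, ← Real.dist_eq]
    exact (hN l hl k hk).le
  have h1 : Tendsto (fun k : ℕ => s0 + k) atTop (𝓝 (y i0)) := by
    simpa [e, Function.comp_def] using (continuous_apply i0).continuousAt.tendsto.comp hy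
  exact not_tendsto_nhds_of_tendsto_atTop
    (tendsto_atTop_add_const_left _ s0 tendsto_natCast_atTop_atTop) _ h1

theorem ll_diff {N : ℝ → ℝ} (hN : ContDiff ℝ ∞ N) {t : ℝ} (ht : N t ≠ 0) :
    DifferentiableAt ℝ (ll N) t := by
  have h1 : Differentiable ℝ N := hN.differentiable (by simp)
  have h2 : Differentiable ℝ (deriv N) :=
    (contDiff_infty_iff_deriv.1 hN).2.differentiable (by simp)
  unfold ll
  exact (differentiableAt_const _).add ((differentiableAt_id.mul (h2 t)).div (h1 t) ht)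

theorem hh_diff (q : ℝ) (D : Dat) {t : ℝ} (hB : D.B t ≠ 0) (hC : D.C t ≠ 0) :
    DifferentiableAt ℝ (hh q D) t := by
  unfold hh
  exact ((ll_diff D.hB hB).const_mul 3).add ((ll_diff D.hC hC).const_mul q)

theorem ineq_of {q : ℝ} (hq : 0 ≤ q) (D : Dat)
    (hp : ∀ t, 0 < t → 0 < D.A t ∧ 0 < D.B t ∧ 0 < D.C t) (hR : ∀ t, 0 < t → 1 ≤ R1 q D t) :
    Ineq D.A D.B (hh q D) (deriv D.A) (deriv D.B) (deriv (hh q D)) (6 + q * (q + 8) ^ 2 / 12) where
  pA t ht := (hp t ht).1
  pB t ht := (hp t ht).2.1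
  dA t _ := (D.hA.differentiable (by simp) t).hasDerivAt
  dB t _ := (D.hB.differentiable (by simp) t).hasDerivAt
  dh t ht := (hh_diff q D (hp t ht).2.1.ne' (hp t ht).2.2.ne').hasDerivAt
  key t ht := by
    obtain ⟨hA, hB, hC⟩ := hp t ht
    have h1 := hR t ht
    unfold R1 at h1
    have e0 : 1 + t * deriv D.B t / D.B t = ll D.B t := rfl
    rw [e0]
    generalize ll D.B t = l1 at *
    generalize ll D.C t = l2 at *
    generalize deriv (hh q D) t = h' at *
    generalize hh q D t = h at *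
    generalize deriv D.A t = A' at *
    generalize D.A t = A at *
    generalize D.B t = B at *
    generalize D.C t = C at *
    have h2 := mul_le_mul_of_nonneg_left h1 (mul_pos ht hA).le
    have e : t * A * ((6 / B + q * (q + 8) / C - 3 * q * B / C ^ 2) / t - 4 * h' / A
        + 2 * h * (A + t * A') / (t * A ^ 2) - h ^ 2 / (t * A) - (3 * l1 ^ 2 + q * l2 ^ 2) / (t * A))
        = (6 + q * (q + 8) ^ 2 / 12) * A / B - 3 * q * (A / B) * (B / C - (q + 8) / 6) ^ 2
          - (4 * t * h' - 2 * h * (1 + t * A' / A)) - h ^ 2 - 3 * l1 ^ 2 - q * l2 ^ 2 := by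
      field_simp
      ring
    rw [e] at h2
    have h3 : 0 ≤ 3 * q * (A / B) * (B / C - (q + 8) / 6) ^ 2 := by positivity
    have h4 : 0 ≤ q * l2 ^ 2 := by positivity
    linarith

theorem main (h : IsQuat J) (hn : 4 ≤ n) {A B C : ℝ → ℝ} (hA : ContDiff ℝ ∞ A)
    (hB : ContDiff ℝ ∞ B) (hC : ContDiff ℝ ∞ C) (hp : ∀ t, 0 ≤ t → 0 < A t ∧ 0 < B t ∧ 0 < C t)
    (hAB : A 0 = B 0) (hc : Complete (hopf J A B C)) (hS : ∀ x, 1 ≤ scal (hopf J A B C) x) :
    WidthLe (rdist (hopf J A B C)) (n - 3) (48 * n ^ 2 + 1) := by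
  let D : Dat := ⟨A, B, C, 0, 0, 0, hA, hB, hC, contDiff_const, contDiff_const, contDiff_const⟩
  have hn' : (4 : ℝ) ≤ n := by exact_mod_cast hn
  have hq : (0 : ℝ) ≤ (n : ℝ) - 4 := by linarith
  let e : Pt n := Pi.single ⟨0, by omega⟩ 1
  have he : e ⬝ᵥ e = 1 := by simp [e]
  have I := ineq_of hq D (fun t ht => hp t ht.le) fun t ht => by
    have h2 : (√t • e) ⬝ᵥ (√t • e) = t := by
      rw [smul_dotProduct, dotProduct_smul, he]; simp [Real.mul_self_sqrt ht.le]
    have hx : √t • e ≠ 0 := fun h0 => by rw [h0] at h2; simp at h2; linarith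
    obtain ⟨a, b, c⟩ := hp t ht.le
    have := scal_all n J D (√t • e) h hx (by rw [h2]; exact a.ne') (by rw [h2]; exact b.ne')
      (by rw [h2]; exact c.ne')
    rw [h2] at this
    rw [← this]
    exact hS _
  have hK : 3 * (6 + ((n : ℝ) - 4) * ((n : ℝ) - 4 + 8) ^ 2 / 12) < 2 * ((n : ℝ) ^ 2) ^ 2 := by
    obtain ⟨q, hq', e⟩ : ∃ q : ℝ, 0 ≤ q ∧ (n : ℝ) = q + 4 := ⟨n - 4, hq, by ring⟩
    rw [e]
    have : 0 ≤ q ^ 2 := by positivity
    have : 0 ≤ q ^ 3 := by positivity
    have : 0 ≤ q ^ 4 := by positivity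
    nlinarith
  have hK0 : (0 : ℝ) < (n : ℝ) ^ 2 := by positivity
  have up := I.upper hK (fun t ht => by
      obtain ⟨a, b, c⟩ := hp t ht
      exact (((hh_diff _ D b.ne' c.ne').continuousAt.mul hB.continuous.continuousAt.sqrt).div
        hA.continuous.continuousAt.sqrt (Real.sqrt_pos.2 a).ne').continuousWithinAt)
    (by
      have h0 : √(D.B 0) = √(D.A 0) := by rw [show D.A 0 = D.B 0 from hAB]
      rw [h0, mul_div_assoc, div_self (Real.sqrt_pos.2 (hp 0 le_rfl).1).ne']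
      simp only [hh, ll, zero_mul, zero_div, add_zero]
      nlinarith)
  have lo := I.lower hK hK0 (ray_unbounded h hn hA.continuous hc)
  have hev : ∀ᶠ t in 𝓝[>] (0 : ℝ), t * B t < 16 * ((n : ℝ) ^ 2) ^ 2 := by
    have : ContinuousAt (fun t => t * B t) 0 := continuousAt_id.mul hB.continuous.continuousAt
    exact mem_nhdsWithin_of_mem_nhds (this.eventually_lt_const (by simp only [zero_mul]; positivity))
  have hL : ∀ t, 0 ≤ t → t * B t ≤ (8 * (n : ℝ) ^ 2) ^ 2 := fun t ht => by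
    rcases ht.eq_or_lt with rfl | ht
    · simp only [zero_mul]; positivity
    · have h2 : ∀ᶠ s in 𝓝[>] (0 : ℝ), s < t := mem_nhdsWithin_of_mem_nhds (Iio_mem_nhds ht)
      obtain ⟨s, ⟨h3, h4⟩, h5⟩ := ((hev.and h2).and self_mem_nhdsWithin).exists
      have := I.bound hK hK0 (fun t ht => abs_le.2 ⟨lo t ht, up t ht.le⟩) h5 h4.le h3.le
      exact this.trans (le_of_eq (by ring))
  have := width_of_bound h hn hA.continuous hB.continuous hC.continuous hp (by positivity) hL
  rwa [show 6 * (8 * (n : ℝ) ^ 2) + 1 = 48 * n ^ 2 + 1 by ring] at this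

end Vale.Agent.P210H
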